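import Vale.Agent.P227.Defs
import Vale.Agent.P227.Bd3.B4

open MeasureTheory

namespace Vale.Agent.Results.P227.LogBrunnMinkowski

open Vale.Agent.P227

/-- The logarithmic Brunn-Minkowski inequality, all dimensions, all origin-symmetric convex bodies. -/
theorem result (n : ℕ) (hn : 0 < n) (K L : Set (EuclideanSpace ℝ (Fin n)))
    (hK : SymConvexBody K) (hL : SymConvexBody L) (t : ℝ) (h0 : 0 ≤ t) (h1 : t ≤ 1) :
    volume K ^ (1 - t) * volume L ^ t ≤ volume (logComb t K L) := by
  have h := Vale.Agent.P227.Int899.q1 n K L t hn hK hL h0 h1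
  have fK : volume K ≠ ⊤ := hK.isCompact.measure_lt_top.ne
  have fL : volume L ≠ ⊤ := hL.isCompact.measure_lt_top.ne
  calc volume K ^ (1 - t) * volume L ^ t
      = ENNReal.ofReal ((volume K).toReal ^ (1 - t) * (volume L).toReal ^ t) := by
        rw [ENNReal.ofReal_mul (by positivity),
          ← ENNReal.ofReal_rpow_of_nonneg ENNReal.toReal_nonneg (by linarith),
          ← ENNReal.ofReal_rpow_of_nonneg ENNReal.toReal_nonneg h0,
          ENNReal.ofReal_toReal fK, ENNReal.ofReal_toReal fL]
    _ ≤ ENNReal.ofReal ((volume (logComb t K L)).toReal) := ENNReal.ofReal_le_ofReal h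
    _ ≤ volume (logComb t K L) := ENNReal.ofReal_toReal_le

end Vale.Agent.Results.P227.LogBrunnMinkowski
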